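import Vale.Agent.P277.H615.R.DatumV
import Vale.Agent.P277.H884.G.ChainG
import Vale.Agent.P277.H884.N2
import Vale.Agent.P277.Stmts20

/-!
# P277, (G): the generic germ of a wedge centred in a flipped surface, whose lift is not in `Bad` or
is a local isomorphism
-/

open scoped Manifold ContDiff Topology
open Vale.Agent.P272.K Vale.Agent.P285.H281.FD Vale.Agent.P267.H175 Set Filter Metric

noncomputable section

namespace Vale.Agent.P277.H884.G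

open Vale.Agent.P277 Vale.Agent.P277.T2 Vale.Agent.P277.H335 Vale.Agent.P277.H615
open Vale.Agent.P277.H19 (exists_max_pow analyticAt_det det_fderiv_comp)
open Vale.Agent.P277.H884.N (exists_notMem bl_eq_self)

variable {Y : Type} [TopologicalSpace Y] [ChartedSpace (Cm 4) Y]
  [T2Space Y] [CompactSpace Y] [IsManifold 𝓘(ℂ, Cm 4) ω Y]

/-- the generic germ of a wedge centred in `S`: the lift is not in `Bad`, or is a local isomorphism -/
theorem exists_germG (hTA : T2.StTAc) (hTD : StTD) (hDis : T2.StDis) {k : ℕ} {V X : CSp}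
    {vV : Y → V.pt} {D : Set Y} {M : Fin k → Bd Y} {m : Fin k → ℕ}
    {L : Fin k → Bd X.pt} {c : Fin k → ℕ} {O : Set Y} {v : Y → X.pt} {P Q : Fin k → ℕ}
    {T : ∀ e, (L e).ι → (((Bd.can 4 Y).pow (m e)).mul (M e)).ι → Y → ℂ} {ρ : Fin k → ℝ}
    {S S₀ : Set X.pt} {Bad : Set Y} (hk : 1 ≤ k) (hM : ∀ e, IsLB 4 (M e))
    (hTw : TwG vV D (fun e => ((Bd.can 4 Y).pow (m e)).mul (M e)) X L c O v P Q T ρ S Bad)
    (hSan : IsAn X univ S) (hSO : S ⊆ (v '' O)ᶜ) (hS1 : ¬ DimLe X 1 S)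
    (hs : DimLe X 1 {x | x ∈ S ∧ ¬ IsReg 4 X x}) (hBc : IsClosed Bad) (hSS : S ⊆ S₀)
    {Cr : Y → X.pt → Prop} (hCr : ∀ y x, Cr y x → y ∈ O ∧ v y = x)
    (hBP : DimLe X 1 {x | T3.BadPt S₀ Cr Bad x})
    {s : ℕ} {β : Fin s → Fin k}
    {sg : ∀ i, (M (β i)).ι → Y → ℂ} (hsec : ∀ i, IsSec 4 (M (β i)) (sg i))
    (hsg : ∀ i a y, y ∈ (M (β i)).U a → ∃ᶠ y' in 𝓝 y, sg i a y' ≠ 0) :
    ∃ (W : Set (Cm 4)) (w₂ : Cm 4) (φ : Cm 4 → X.pt) (γ : Cm 4 → Y) (ch : Chart 4 Y)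
      (μ : ∀ e, (M e).ι) (i : ∀ e, (L e).ι) (x : Fin k → ℚ) (J : ℕ) (κ : Fin k → ℤ)
      (g : Fin s → ℕ), GermV O v T S W w₂ φ γ ch μ i x J ∧
      ((0 < ∑ e, ρ e / Q e * x e ∧ ∀ w ∈ W, γ w ∉ Bad) ∨ J = 0) ∧
      (∀ e, x e = Q e * (m e * (1 - J) - κ e)) ∧
      (∀ e, ∀ χ : Chart 4 Y → Cm 4 → Matrix (Fin 4) (Fin 4) ℂ, IsKahler χ → Nef χ (M e) →
        0 ≤ κ e) ∧
      ∀ a, ∃ Φg, AnalyticAt ℂ Φg w₂ ∧ Φg w₂ ≠ 0 ∧
        ∀ᶠ w in 𝓝 w₂, sg a (μ (β a)) (γ w) = w 0 ^ g a * Φg w := by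
  have hv : IsOpenEmb X O v := (hTw.tw ⟨0, hk⟩).emb
  have hO : DimLe X 2 (v '' O)ᶜ := (hTw.tw ⟨0, hk⟩).dim
  obtain ⟨ξ, r, hr, hξ, hWo, h0W, hφ, hφS, hφd⟩ := exists_wedge hTA hv hO hSan hSO hS1 hs
  set φ : Cm 4 → X.pt := fun w => ξ (bl w) with hφdef
  set WB : Set (Cm 4) := {w : Cm 4 | bl w ∈ ball (0 : Cm 4) r} with hWB
  choose i hi using fun e => (hTw.lb e).cover (φ 0)
  -- the first lift
  set Wa : Set (Cm 4) := {w | w ∈ WB ∧ φ w ∈ ⋂ e, (L e).U (i e)} with hWa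
  have hWao : IsOpen Wa := by
    have h1 : ContinuousOn φ WB := fun w hw => (hφ w hw).1.continuousWithinAt
    exact h1.isOpen_inter_preimage hWo (isOpen_iInter_of_finite fun e => (hTw.lb e).isOpen (i e))
  have hcla : Wa ⊆ closure {w | w ∈ Wa ∧ φ w ∈ v '' O} :=
    subset_closure_of_open hWao (fun w hw => hw.1) hφd
  have hWai : ∀ w ∈ Wa, ∀ e, φ w ∈ (L e).U (i e) := fun w hw e => mem_iInter.1 hw.2 e
  obtain ⟨wa, hwa, hwa0, Wb, γa, cha, cca, -, hWb, hwaWb, hWbWa, hγa, hOa1, hOa2, -, -, -⟩ :=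
    hTw.chain Wa 0 φ i hWao ⟨h0W, mem_iInter.2 hi⟩ rfl (fun w hw => hφ w hw.1) hcla hWai
  -- a point which is not bad
  obtain ⟨ws, hws, hws0, hwsγ⟩ : ∃ w ∈ Wb, w 0 = 0 ∧
      (γa w ∈ Badᶜ ∨ (fderiv ℂ (fun w => cha (γa w)) w).det ≠ 0) := by
    let ins : Cm 4 → Cm 4 := fun z => ![z 0, wa 1, z 2, z 3]
    have hins : Continuous ins := by
      refine continuous_pi fun i => ?_
      fin_cases i
      · exact continuous_apply 0
      · exact continuous_const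
      · exact continuous_apply 2
      · exact continuous_apply 3
    have hblins : ∀ z : Cm 4, z 0 = 0 → z 1 = 0 → bl (ins z) = z := by
      intro z h0 h1
      ext i
      fin_cases i
      · rfl
      · show z 0 * wa 1 = z 1
        rw [h0, h1, zero_mul]
      · rfl
      · rfl
    have hwa' : ins (bl wa) = wa := by
      ext i
      fin_cases i
      · rfl
      · rfl
      · rfl
      · rfl
    have hbwa0 : (bl wa) 0 = 0 := hwa0
    have hbwa1 : (bl wa) 1 = 0 := by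
      show wa 0 * wa 1 = 0
      rw [hwa0, zero_mul]
    obtain ⟨z, hz, hz0, hz1, hzB⟩ := exists_notMem hξ hBP (U := ball (0 : Cm 4) r ∩ ins ⁻¹' Wb)
      (isOpen_ball.inter (hWb.preimage hins)) inter_subset_left
      (w := bl wa) ⟨(hWbWa hwaWb).1, by show ins (bl wa) ∈ Wb; rw [hwa']; exact hwaWb⟩ hbwa0 hbwa1
    by_contra hcon
    push Not at hcon
    refine hzB ⟨ξ, r, Wb, ins z, γa, cha, hr, hξ.inj, hξ.isOpenMap, hξ.hol, fun z hz hz0 hz1 => ?_,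
      hWb, hz.2, hz0, by rw [hblins z hz0 hz1], fun w hw => ⟨(hWbWa hw).1, ?_, (hγa w hw).1,
        (hγa w hw).2.1, (hγa w hw).2.2.1, fun hw0 => ⟨?_, (hcon w hw hw0).2⟩⟩⟩
    · have h1 := hφS z (by show bl z ∈ ball (0 : Cm 4) r; rw [bl_eq_self hz0 hz1]; exact hz) hz0
      rw [bl_eq_self hz0 hz1] at h1
      exact hSS h1
    · intro y hy
      obtain ⟨h1, h2⟩ := hCr y _ hy
      have h3 : γa w ∈ O := hOa1 w hw ⟨y, h1, h2⟩
      exact hv.inj h3 h1 (by rw [hOa2 w hw h3, h2])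
    · exact not_not.1 (hcon w hw hw0).1
  -- the second lift
  set W' : Set (Cm 4) := {w | w ∈ Wb ∧ (γa w ∈ Badᶜ ∨
    (fderiv ℂ (fun w => cha (γa w)) w).det ≠ 0)} with hW'
  have hW'o : IsOpen W' := by
    rw [isOpen_iff_eventually]
    rintro w ⟨h1, h2⟩
    refine (hWb.eventually_mem h1).and ?_
    rcases h2 with h2 | h2
    · exact ((hγa w h1).1.eventually_mem (hBc.isOpen_compl.mem_nhds h2)).mono fun z hz => Or.inl hz
    · exact ((analyticAt_det (hγa w h1).2.2.1).continuousAt.eventually_ne h2).mono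
        fun z hz => Or.inr hz
  have hW'B : ∀ w ∈ W', w ∈ WB := fun w hw => (hWbWa hw.1).1
  have hcl' : W' ⊆ closure {w | w ∈ W' ∧ φ w ∈ v '' O} :=
    subset_closure_of_open hW'o (fun w hw => hWbWa hw.1) hcla
  have hW'i : ∀ w ∈ W', ∀ e, φ w ∈ (L e).U (i e) := fun w hw => hWai w (hWbWa hw.1)
  obtain ⟨w₁, hw₁, hw₁0, W₁, γ, ch, cc, x, hW₁, hw₁W, hW₁W, hγ, hO1, hO2, hT, -, hpos⟩ :=
    hTw.chain W' ws φ i hW'o ⟨hws, hwsγ⟩ hws0 (fun w hw => hφ w (hW'B w hw)) hcl' hW'i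
  have hdW₁ : W₁ ⊆ closure {w | w ∈ W₁ ∧ φ w ∈ v '' O} :=
    subset_closure_of_open hW₁ hW₁W hcl'
  have hagr : ∀ w ∈ W₁, γ w = γa w := by
    intro w hw
    by_contra hne
    obtain ⟨U, U', hU, hU', hwU, hwU', hd⟩ := t2_separation hne
    have h1 := (hγ w hw).1.preimage_mem_nhds (hU.mem_nhds hwU)
    have h2 := (hγa w (hW₁W hw).1).1.preimage_mem_nhds (hU'.mem_nhds hwU')
    obtain ⟨w', ⟨h3, h4⟩, h5, h6⟩ := mem_closure_iff_nhds.1 (hdW₁ hw) _ (inter_mem h1 h2)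
    have h7 : γ w' ∈ O := hO1 w' h5 h6
    have h8 : γa w' ∈ O := hOa1 w' (hW₁W h5).1 h6
    have h9 : γ w' = γa w' :=
      hv.inj h7 h8 (by rw [hO2 w' h5 h7, hOa2 w' (hW₁W h5).1 h8])
    refine disjoint_left.1 hd h3 ?_
    rw [h9]; exact h4
  have hpos := hpos (fun w hw hw0 => hφS w (hW'B w hw) hw0)
  obtain ⟨g1, g2, g3, g4⟩ := hγ w₁ hw₁W
  have hW₁n := hW₁.mem_nhds hw₁W
  -- the orders in a common chart
  have hord : ∀ e, HasOrd {w | γ w ∈ O} w₁ (fun w => T e (i e) (ch, (cc e).2) (γ w)) (x e) := by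
    intro e
    refine RR.hasOrd_change (hM e) (hTw.tw e).lb (hTw.tw e).iso hw₁0 g1 (φ := φ) ?_ ?_
      (e := (cc e).1) (g4 e).1 g2 (g4 e).2 g3 (hT e)
    · filter_upwards [hW₁n] with w hw using hW'i w (hW₁W hw) e
    · filter_upwards [hW₁n] with w hw using hO2 w hw
  -- the Jacobian
  have hdet : ∀ w ∈ W₁, φ w ∈ v '' O → (fderiv ℂ (fun w => ch (γ w)) w).det ≠ 0 := by
    intro w hw hwO
    have hwB : bl w ∈ ball (0 : Cm 4) r := hW'B w (hW₁W hw)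
    have hw0 : w 0 ≠ 0 := fun h0 => (hSO (hφS w hwB h0)) hwO
    set y₀ : Y := γ w with hy₀
    have h1 : ∀ᶠ z in 𝓝 w, γ z = hv.inv y₀ (ξ (bl z)) := by
      filter_upwards [hW₁.mem_nhds hw, (hφ w hwB).1.eventually_mem
        (hv.isOpen_image.mem_nhds hwO)] with z hz hzO
      have h2 := hO1 z hz hzO
      have h3 := hO2 z hz h2
      have h4 : ξ (bl z) = v (γ z) := h3.symm
      rw [h4, hv.inv_apply y₀ h2]
    have heq : (fun w => ch (γ w)) =ᶠ[𝓝 w] fun w => ch (hv.inv y₀ (ξ (bl w))) := by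
      filter_upwards [h1] with z hz
      rw [hz]
    have hat : At ch (hv.inv y₀ (ξ (bl w))) := by
      rw [← h1.self_of_nhds]; exact (hγ w hw).2.1
    have hρan := hξ.rho_analyticAt hv y₀ hwB hwO hat
    have hJw : (fderiv ℂ (fun w => ch (γ w)) w).det =
        (fderiv ℂ (fun w => ch (hv.inv y₀ (ξ w))) (bl w)).det * w 0 := by
      rw [heq.fderiv_eq, ← H19.det_fderiv_bl w]
      exact det_fderiv_comp (G := fun w => ch (hv.inv y₀ (ξ w))) (F := bl) hρan.differentiableAt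
        (H19.analyticAt_bl w).differentiableAt
    rw [hJw]
    exact mul_ne_zero (hξ.rho_det_ne_zero hv y₀ hwB hwO hat) hw0
  have hJz : ¬ ∀ᶠ w in 𝓝 w₁, (fderiv ℂ (fun w => ch (γ w)) w).det = 0 := by
    intro hz
    obtain ⟨w, ⟨h1, h2⟩, h3, h4⟩ := mem_closure_iff_nhds.1 (hdW₁ hw₁W) _
      (hz.and (hW₁.mem_nhds hw₁W))
    exact hdet w h3 h4 h1
  obtain ⟨J, FJ, hFJ, hJFJ, hFJ0⟩ := exists_ord (analyticAt_det g3) hw₁0 hJz
  have hcase : γ w₁ ∉ Bad ∨ J = 0 := by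
    rcases (hW₁W hw₁W).2 with h1 | h1
    · left
      rw [hagr w₁ hw₁W]; exact h1
    · right
      have h2 : γa =ᶠ[𝓝 w₁] γ := by
        filter_upwards [hW₁.mem_nhds hw₁W] with w hw using (hagr w hw).symm
      have h3 : (fun w => cha (γa w)) =ᶠ[𝓝 w₁] fun w => cha (γ w) := by
        filter_upwards [h2] with w hw
        rw [hw]
      obtain ⟨m1, m2, m3, -⟩ := hγa w₁ (hW₁W hw₁W).1
      rw [h3.fderiv_eq, H19.det_change g1 g2 (by rw [hagr w₁ hw₁W]; exact m2) g3] at h1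
      have h4 := right_ne_zero_of_mul h1
      by_contra hJ
      refine h4 ?_
      rw [hJFJ.self_of_nhds, hw₁0, zero_pow hJ, zero_mul]
  -- the sections
  have hsga : ∀ a, AnalyticAt ℂ (fun w => sg a ((cc (β a)).2) (γ w)) w₁ := by
    intro a
    exact analyticAt_comp_chart g1 g2 g3
      ((hsec a).holo _ ch _ g2 (g4 (β a)).2).analyticAt
  have hsgz : ∀ a, ¬ ∀ᶠ w in 𝓝 w₁, sg a ((cc (β a)).2) (γ w) = 0 := by
    intro a hz
    obtain ⟨w, ⟨h1, h2⟩, h3, h4⟩ := mem_closure_iff_nhds.1 (hdW₁ hw₁W) _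
      (hz.eventually_nhds.and (hW₁.mem_nhds hw₁W))
    have h5 := hdet w h3 h4
    obtain ⟨k1, k2, k3, k4⟩ := hγ w h3
    have hinj : Function.Injective (fderiv ℂ (fun w => ch (γ w)) w) := by
      have h1 : LinearMap.det (fderiv ℂ (fun w => ch (γ w)) w : Cm 4 →ₗ[ℂ] Cm 4) ≠ 0 := h5
      exact (LinearMap.equivOfDetNeZero _ h1).injective
    obtain ⟨θ, hθ, hθs, -, -⟩ := H73.exists_localInv k3 hinj
    -- near `γ w` the section vanishes
    have h6 : ∀ᶠ y' in 𝓝 (γ w), sg a ((cc (β a)).2) y' = 0 := by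
      have h7 : Tendsto (fun y' => θ.symm (ch y')) (𝓝 (γ w)) (𝓝 w) := by
        have h8 : ContinuousAt ch (γ w) := ch.continuousAt k2.2
        have h9 : ch (γ w) ∈ θ.target := by
          have := θ.map_source hθs
          rwa [hθ] at this
        have h10 : ContinuousAt θ.symm (ch (γ w)) := θ.continuousAt_symm h9
        have h11 : Tendsto (fun y' => θ.symm (ch y')) (𝓝 (γ w)) (𝓝 (θ.symm (ch (γ w)))) :=
          (ContinuousAt.comp (g := θ.symm) (f := ch) h10 h8)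
        have h12 : θ.symm (ch (γ w)) = w := by
          have := θ.left_inv hθs
          rwa [hθ] at this
        rwa [h12] at h11
      have h9 : ∀ᶠ y' in 𝓝 (γ w), ch y' ∈ θ.target := by
        refine (ch.continuousAt k2.2).eventually_mem (θ.open_target.mem_nhds ?_)
        have := θ.map_source hθs
        rwa [hθ] at this
      filter_upwards [h7.eventually h1, h7.eventually (hW₁.mem_nhds h3), h9,
        ch.open_source.mem_nhds k2.2] with y' m1 m2 m3 m4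
      have m5 : ch (γ (θ.symm (ch y'))) = ch y' := by
        have := θ.right_inv m3
        rwa [hθ] at this
      have m6 : γ (θ.symm (ch y')) = y' := ch.injOn (hγ _ m2).2.1.2 m4 m5
      rw [m6] at m1
      exact m1
    exact (hsg a _ _ (k4 (β a)).2) (h6.mono fun y' hy' => by simpa using hy')
  choose g Fg hFg hgFg hFg0 using fun a => exists_ord (hsga a) hw₁0 (hsgz a)
  -- a generic point
  have hfr := exists_unit'' hw₁0 hord (κ := Option (Fin s))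
    (F := fun o => o.elim FJ Fg) (fun o => by
      rcases o with _ | a
      · exact hFJ
      · exact hFg a) (fun o => by
      rcases o with _ | a
      · exact hFJ0
      · exact hFg0 a)
  have hev : ∀ᶠ w in 𝓝 w₁, w ∈ W₁ ∧ (γ w₁ ∉ Bad → γ w ∉ Bad) ∧ (∀ e, w 0 = 0 →
      HasOrd {w | γ w ∈ O} w (fun w => T e (i e) (ch, (cc e).2) (γ w)) (x e)) ∧
      AnalyticAt ℂ FJ w ∧ (∀ᶠ z in 𝓝 w, (fderiv ℂ (fun w => ch (γ w)) z).det = z 0 ^ J * FJ z) ∧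
      ∀ a, AnalyticAt ℂ (Fg a) w ∧ ∀ᶠ z in 𝓝 w, sg a ((cc (β a)).2) (γ z) = z 0 ^ g a * Fg a z := by
    refine (hW₁.eventually_mem hw₁W).and (Filter.Eventually.and ?_ (Filter.Eventually.and ?_
      (hFJ.eventually_analyticAt.and (hJFJ.eventually_nhds.and ?_))))
    · by_cases h1 : γ w₁ ∈ Bad
      · exact Eventually.of_forall fun w h2 => (h2 h1).elim
      · exact (g1.eventually_mem (hBc.isOpen_compl.mem_nhds h1)).mono fun w hw _ => hw
    · rw [eventually_all]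
      exact fun e => (hord e).eventually hw₁0
    · rw [eventually_all]
      exact fun a => (hFg a).eventually_analyticAt.and (hgFg a).eventually_nhds
  obtain ⟨W₂, hW₂s, hW₂, hw₁W₂⟩ := _root_.mem_nhds_iff.1 hev
  obtain ⟨w₂, ⟨hw₂0, hFne, K, hK, hdat⟩, hw₂W⟩ := (hfr.and_eventually (hW₂.mem_nhds hw₁W₂)).exists
  choose ν Φ hν hΦ hΦ0 hrel using hdat
  have hw₂W₁ : w₂ ∈ W₁ := (hW₂s hw₂W).1
  obtain ⟨k1, k2, k3, k4⟩ := hγ w₂ hw₂W₁
  obtain ⟨-, -, -, m3, m4, m5⟩ := hW₂s hw₂W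
  have hκ : ∀ e, ∃ κ : ℤ, ν e = Q e * K * (m e * (1 - J) - κ) ∧
      ∀ χ : Chart 4 Y → Cm 4 → Matrix (Fin 4) (Fin 4) ℂ, IsKahler χ → Nef χ (M e) → 0 ≤ κ := by
    intro e
    refine txV hTD hDis hv hO hSO hξ hφS (hM e) (hTw.tw e).lb (hTw.tw e).hQ (hTw.tw e).iso
      (hW'B _ (hW₁W hw₂W₁)) hw₂0 k1 k2 (k4 e).2 k3 ?_ (hW'i w₂ (hW₁W hw₂W₁) e) hK (hΦ e).continuousAt
      (hΦ0 e) (hrel e) m3.continuousAt (hFne none) m4
    filter_upwards [hW₁.mem_nhds hw₂W₁] with w hw hwO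
    exact ⟨hO1 w hw hwO, hO2 w hw (hO1 w hw hwO)⟩
  choose κ hκ1 hκ2 using hκ
  refine ⟨W₂, w₂, φ, γ, ch, fun e => (cc e).2, i, x, J, κ, g, ⟨hW₂, hw₂W, hw₂0,
    fun w hw => hφ w (hW'B w (hW₁W (hW₂s hw).1)),
    fun w hw hw0 => hφS w (hW'B w (hW₁W (hW₂s hw).1)) hw0,
    subset_closure_of_open hW₂ (fun w hw => (hW₂s hw).1) hdW₁,
    fun w hw => ⟨(hγ w (hW₂s hw).1).1, (hγ w (hW₂s hw).1).2.1, (hγ w (hW₂s hw).1).2.2.1⟩,
    fun w hw e => ((hγ w (hW₂s hw).1).2.2.2 e).2, fun w hw => hW'i w (hW₁W (hW₂s hw).1),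
    fun w hw => hO1 w (hW₂s hw).1, fun w hw => hO2 w (hW₂s hw).1,
    fun w hw hw0 e => (hW₂s hw).2.2.1 e hw0, ⟨FJ, m3, hFne none, m4⟩,
    ⟨K, hK, fun e => ⟨ν e, Φ e, hν e, hΦ e, hΦ0 e, hrel e⟩⟩⟩,
    hcase.imp_left fun h => ⟨hpos h, fun w hw => (hW₂s hw).2.1 h⟩, fun e => ?_, hκ2,
    fun a => ⟨Fg a, (m5 a).1, hFne (some a), (m5 a).2⟩⟩
  have h1 : (K : ℚ) ≠ 0 := by exact_mod_cast (Nat.one_le_iff_ne_zero.1 hK)
  have h2 : x e * K = Q e * (m e * (1 - J) - κ e) * K := by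
    rw [← hν e, hκ1 e]
    push_cast
    ring
  exact mul_right_cancel₀ h1 h2

end Vale.Agent.P277.H884.G
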