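import Vale.Agent.P277.H884.G.SeqG
import Vale.Agent.P277.Stmts20

/-!
# P277, (G): the correspondence between the points of `Y` and of `X j`, and total transforms
-/

open scoped Manifold ContDiff Topology
open Vale.Agent.P272.K Vale.Agent.P285.H281.FD Vale.Agent.P267.H175 Set Metric Filter

noncomputable section

namespace Vale.Agent.P277.H884.G

open Vale.Agent.P277 Vale.Agent.P277.T2 Vale.Agent.P277.T3 Vale.Agent.P277.H615

section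

variable {Y : Type} {X Z : ℕ → CSp} {D : Set Y} {v₀ : Y → (X 0).pt}
  {f : ∀ j, (X j).pt → (Z j).pt} {f' : ∀ j, (X (j + 1)).pt → (Z j).pt}

/-- the correspondence is the graph of `v j` on `O j` -/
theorem cor_iff {O : ℕ → Set Y} {v : ∀ j, Y → (X j).pt} (hO : O 0 = Dᶜ) (hv : v 0 = v₀)
    (hstep : ∀ j, O (j + 1) = {y | y ∈ O j ∧ f j (v j y) ∉ Amin (f j)})
    (hcomp : ∀ j, ∀ y ∈ O (j + 1), f' j (v (j + 1) y) = f j (v j y))
    (hinj : ∀ j x x', f' j x ∉ Amin (f j) → f' j x' = f' j x → x' = x) (j : ℕ) (y : Y)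
    (x : (X j).pt) : Cor D v₀ f f' j y x ↔ y ∈ O j ∧ v j y = x := by
  induction j with
  | zero =>
    show y ∉ D ∧ v₀ y = x ↔ _
    rw [hO, hv]
    exact Iff.rfl
  | succ j ih =>
    show (∃ x₀, Cor D v₀ f f' j y x₀ ∧ f j x₀ = f' j x ∧ f j x₀ ∉ Amin (f j)) ↔ _
    constructor
    · rintro ⟨x₀, h1, h2, h3⟩
      obtain ⟨h4, rfl⟩ := (ih x₀).1 h1
      have h5 : y ∈ O (j + 1) := by rw [hstep]; exact ⟨h4, h3⟩
      refine ⟨h5, hinj j x _ (by rw [← h2]; exact h3) ?_⟩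
      rw [hcomp j y h5, h2]
    · rintro ⟨h1, rfl⟩
      have h2 := h1
      rw [hstep] at h2
      exact ⟨v j y, (ih _).2 ⟨h2.1, rfl⟩, (hcomp j y h1).symm, h2.2⟩

end

section

variable {Y : Type} [TopologicalSpace Y] {X : CSp}

theorem tot_mono {Cr : Y → X.pt → Prop} {Bad Bad' : Set Y} (h : Bad ⊆ Bad') :
    Tot Cr Bad ⊆ Tot Cr Bad' := fun _ ⟨y, hy, h'⟩ => ⟨y, h hy, h'⟩

theorem isClosed_tot [CompactSpace Y] [T2Space Y] (Cr : Y → X.pt → Prop) {Bad : Set Y}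
    (hB : IsClosed Bad) : IsClosed (Tot Cr Bad) := by
  have h1 : Tot Cr Bad = Prod.snd '' ((Bad ×ˢ univ) ∩ closure {q : Y × X.pt | Cr q.1 q.2}) := by
    ext x
    constructor
    · rintro ⟨y, hy, h⟩
      exact ⟨(y, x), ⟨⟨hy, mem_univ _⟩, h⟩, rfl⟩
    · rintro ⟨⟨y, x'⟩, ⟨⟨hy, -⟩, h⟩, rfl⟩
      exact ⟨y, hy, h⟩
  rw [h1]
  exact (((hB.prod isClosed_univ).inter isClosed_closure).isCompact.image continuous_snd).isClosed

/-- the lift of a wedge outside of the total transform of `Bad` is outside of `Bad` -/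
theorem notMem_of_tot {Cr : Y → X.pt → Prop} {Bad : Set Y} {O : Set Y} {v : Y → X.pt}
    (hCr : ∀ y ∈ O, Cr y (v y)) {W : Set (Cm 4)} {γ' : Cm 4 → X.pt} {γ : Cm 4 → Y}
    (hd : W ⊆ closure {w | w ∈ W ∧ γ' w ∈ v '' O}) (hO1 : ∀ w ∈ W, γ' w ∈ v '' O → γ w ∈ O)
    (hO2 : ∀ w ∈ W, γ w ∈ O → v (γ w) = γ' w) {w : Cm 4} (hw : w ∈ W) (hγ : ContinuousAt γ w)
    (hγ' : ContinuousAt γ' w) (h : γ' w ∉ Tot Cr Bad) : γ w ∉ Bad := by
  intro hb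
  refine h ⟨γ w, hb, ?_⟩
  rw [mem_closure_iff_nhds]
  intro U hU
  have h1 : Tendsto (fun w => (γ w, γ' w)) (𝓝 w) (𝓝 (γ w, γ' w)) := hγ.prodMk hγ'
  obtain ⟨w', h2, h3, h4⟩ := mem_closure_iff_nhds.1 (hd hw) _ (h1 hU)
  have h5 := hO1 w' h3 h4
  refine ⟨(γ w', γ' w'), h2, ?_⟩
  show Cr (γ w') (γ' w')
  rw [← hO2 w' h3 h5]
  exact hCr _ h5

end

end Vale.Agent.P277.H884.G
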