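import Vale.Agent.P277.H615.R.BaseV
import Vale.Agent.P277.H884.G.ChainG

/-!
# P277, (G): the start of the tower
-/

open scoped Manifold ContDiff Topology
open Vale.Agent.P272.K Vale.Agent.P285.H281.FD Vale.Agent.P267.H175 Set Filter Metric

noncomputable section

namespace Vale.Agent.P277.H884.G

open Vale.Agent.P277 Vale.Agent.P277.T2 Vale.Agent.P277.H335 Vale.Agent.P277.H615

variable {Y : Type} [TopologicalSpace Y] [T2Space Y] [CompactSpace Y] [ChartedSpace (Cm 4) Y]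
  [IsManifold 𝓘(ℂ, Cm 4) ω Y] {k r : ℕ} {X : CSp}

/-- lifting of wedges to the resolution -/
theorem chainG_base (hL0 : StL0) {W : CSp} (hX : IsNormal 4 X)
    {v : Y → W.pt} {p : W.pt → X.pt} {P : Bd W.pt} {G : Fin r → Set Y} (hR : IsRes v p P G)
    {N : Fin k → Bd Y} (hNo : ∀ e c, IsOpen ((N e).U c)) (hNc : ∀ e y, ∃ c, y ∈ (N e).U c)
    {L : Fin k → Bd X.pt} {c : Fin k → ℕ} {n : Fin k → Fin r → ℤ}
    {t : ∀ e, (L e).ι → (N e).ι → Y → ℂ}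
    (ht : IsCmpV (fun y => p (v y)) L (fun e => (N e).pow (c e)) G n t) {ρ : Fin k → ℝ}
    {Bd : Set Y} (hρ : ∀ l, 0 ≤ ∑ e, ρ e * n e l / c e ∨ G l ⊆ Bd) :
    ChainG N X L (⋃ l, G l)ᶜ (fun y => p (v y)) t (fun e => ρ e / c e) ∅ Bd := by
  intro B w₀ γ' i hB hw₀ hw₀0 hγ' hd hi
  obtain ⟨w₁, hw₁, hw₁0, B₁, γ₀, hB₁, hw₁', hB₁B, hγ₀⟩ :=
    hL0 Y W X hX r v p P G hR B hB w₀ hw₀ hw₀0 γ' hγ' hd
  choose j hj using fun e => hNc e (γ₀ w₁)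
  set ch : Chart 4 Y := chartAt (Cm 4) (γ₀ w₁) with hch
  have hat : At ch (γ₀ w₁) := H19.at_chartAt _
  have heat : ch ∈ atlas (Cm 4) Y := chart_mem_atlas _ _
  have hjo : IsOpen {y : Y | ∀ e, y ∈ (N e).U (j e)} := by
    have h1 : {y : Y | ∀ e, y ∈ (N e).U (j e)} = ⋂ e, (N e).U (j e) := by ext y; simp
    rw [h1]
    exact isOpen_iInter_of_finite fun e => hNo e _
  have hW₁ : IsOpen (B₁ ∩ γ₀ ⁻¹' (ch.source ∩ {y : Y | ∀ e, y ∈ (N e).U (j e)})) := by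
    have h1 : ContinuousOn γ₀ B₁ := fun w hw => (hγ₀ w hw).1.continuousWithinAt
    exact h1.isOpen_inter_preimage hB₁ (ch.open_source.inter hjo)
  have hpre : ∀ w ∈ B₁, γ' w ∈ (fun y => p (v y)) '' (⋃ l, G l)ᶜ → γ₀ w ∈ (⋃ l, G l)ᶜ := by
    rintro w hw ⟨y, hy, hyw⟩
    have h1 : p (v (γ₀ w)) = p (v y) := by rw [(hγ₀ w hw).2.1]; exact hyw.symm
    have h2 : v (γ₀ w) = v y := hR.inj y _ hy h1
    rw [hR.emb.inj (mem_univ _) (mem_univ _) h2]; exact hy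
  -- the orders of the local equations
  obtain ⟨ζ, hζ, hu⟩ := ht.div (γ₀ w₁)
  have hγc : ContinuousAt γ₀ w₁ := (hγ₀ w₁ hw₁').1
  have hγa := (hγ₀ w₁ hw₁').2.2 ch hat
  have hζa : ∀ l, AnalyticAt ℂ (fun w => ζ l (γ₀ w)) w₁ := fun l =>
    analyticAt_comp_chart hγc hat hγa ((hζ l).2 ch hat).1
  have hζne : ∀ l, ∀ᶠ w in 𝓝 w₁, w ∈ {w | γ₀ w ∈ (⋃ l, G l)ᶜ} → w 0 ≠ 0 → ζ l (γ₀ w) ≠ 0 := by
    intro l
    filter_upwards [hγc.eventually (hζ l).1] with w hw hwO _ h0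
    exact hwO (mem_iUnion.2 ⟨l, hw.1 h0⟩)
  have hex : ∀ U ∈ 𝓝 w₁, ∃ w ∈ U, w ∈ B₁ ∧ γ₀ w ∈ (⋃ l, G l)ᶜ := by
    intro U hU
    obtain ⟨w, h1, h2⟩ := mem_closure_iff_nhds.1 (hd (hB₁B hw₁')) (U ∩ B₁)
      (inter_mem hU (hB₁.mem_nhds hw₁'))
    exact ⟨w, h1.1, h1.2, hpre w h1.2 h2.2⟩
  have hζnz : ∀ l, ¬ ∀ᶠ w in 𝓝 w₁, ζ l (γ₀ w) = 0 := by
    intro l hz
    obtain ⟨w, ⟨h1, h2⟩, -, h3⟩ := hex _ (hz.and (hγc.eventually (hζ l).1))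
    exact h3 (mem_iUnion.2 ⟨l, h2.1 h1⟩)
  have hμex : ∀ l, ∃ μ : ℕ, HasOrd {w | γ₀ w ∈ (⋃ l, G l)ᶜ} w₁ (fun w => ζ l (γ₀ w)) μ ∧
      (ζ l (γ₀ w₁) ≠ 0 → μ = 0) := by
    intro l
    by_cases h0 : ζ l (γ₀ w₁) = 0
    · obtain ⟨μ, hμ, -⟩ := HasOrd.of_analytic (D := {w | γ₀ w ∈ (⋃ l, G l)ᶜ}) hw₁0 (hζa l)
        (hζnz l)
      exact ⟨μ, hμ, fun h => absurd h0 h⟩
    · refine ⟨0, ?_, fun _ => rfl⟩
      have h1 := HasOrd.of_unit (D := {w | γ₀ w ∈ (⋃ l, G l)ᶜ}) hw₁0 (hζa l) h0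
      rw [Nat.cast_zero]
      exact h1
  choose μ hμ hμ1 using hμex
  have hvU : ∀ e, p (v (γ₀ w₁)) ∈ (L e).U (i e) := fun e => by
    rw [(hγ₀ w₁ hw₁').2.1]; exact hi w₁ hw₁ e
  refine ⟨w₁, hw₁, hw₁0, _, γ₀, ch, j, fun e => ∑ l, μ l * n e l, hW₁,
    ⟨hw₁', mem_chart_source _ _, hj⟩, inter_subset_left.trans hB₁B, ?_, ?_, ?_, ?_, ?_, ?_⟩
  · rintro w ⟨hw, hws, hwj⟩
    obtain ⟨h1, h2, h3⟩ := hγ₀ w hw
    exact ⟨h1, ⟨heat, hws⟩, h3 ch ⟨heat, hws⟩, hwj⟩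
  · rintro w ⟨hw, -, -⟩ hwO
    exact hpre w hw hwO
  · rintro w ⟨hw, -, -⟩ -
    exact (hγ₀ w hw).2.1
  · intro e
    obtain ⟨u, hu0, hua, htu⟩ := hu e (i e) (j e) (hvU e) (hj e)
    have h1 : HasOrd {w | γ₀ w ∈ (⋃ l, G l)ᶜ} w₁ (fun w => u (γ₀ w)) 0 :=
      HasOrd.of_unit hw₁0 (analyticAt_comp_chart hγc hat hγa (hua ch hat)) hu0
    have h2 := HasOrd.prod hw₁0 Finset.univ fun l => (hμ l).zpow (hζne l) (n e l)
    have h3 := h1.mul hw₁0 h2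
    rw [zero_add] at h3
    refine h3.congr ?_
    filter_upwards [hγc.eventually htu] with w hw hwO _
    exact hw hwO
  · have h1 : ∑ e, ρ e / c e * ((∑ l, (μ l : ℚ) * n e l : ℚ) : ℝ) =
        ∑ l, (μ l : ℝ) * ∑ e, ρ e * n e l / c e := by
      push_cast
      simp only [Finset.mul_sum]
      rw [Finset.sum_comm]
      exact Finset.sum_congr rfl fun l _ => Finset.sum_congr rfl fun e _ => by ring
    intro h3
    rw [h1]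
    refine Finset.sum_nonneg fun l _ => ?_
    rcases hρ l with h2 | h2
    · exact mul_nonneg (Nat.cast_nonneg _) h2
    · have h4 : ζ l (γ₀ w₁) ≠ 0 := fun h5 => h3 (h2 (((hζ l).1.self_of_nhds).1 h5))
      rw [hμ1 l h4, Nat.cast_zero, zero_mul]
  · intro h
    exact (h w₀ hw₀ hw₀0).elim

/-- the tower on `X 0` -/
theorem TwG.base (hL0 : StL0) {W : CSp} (hX : IsNormal 4 X)
    {v : Y → W.pt} {p : W.pt → X.pt} {P : Bd W.pt} {G : Fin r → Set Y} (hR : IsRes v p P G)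
    (hne : Nonempty W.pt)
    {N : Fin k → Bd Y} (hNo : ∀ e c, IsOpen ((N e).U c)) (hNc : ∀ e y, ∃ c, y ∈ (N e).U c)
    {L : Fin k → Bd X.pt} (hL : ∀ e, IsLBx X (L e)) {c : Fin k → ℕ} (hc : ∀ e, 1 ≤ c e)
    {n : Fin k → Fin r → ℤ} {t : ∀ e, (L e).ι → (N e).ι → Y → ℂ}
    (ht : IsCmpV (fun y => p (v y)) L (fun e => (N e).pow (c e)) G n t) {ρ : Fin k → ℝ}
    {Bd : Set Y} (hρ : ∀ l, 0 ≤ ∑ e, ρ e * n e l / c e ∨ G l ⊆ Bd) :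
    TwG v (⋃ l, G l) N X L c (⋃ l, G l)ᶜ (fun y => p (v y)) (fun _ => 1) c t ρ ∅ Bd where
  tw e := by
    refine ⟨hR.emb', ?_, subset_rfl, ?_, le_rfl, hc e, IsLBx.pow (hL e) 1,
      isoY_of_cmpV hR.closed ht e⟩
    · rw [isRes_compl hR]; exact hR.dim
    · rw [sdiff_self, image_empty]; exact dimLe_empty
  lb := hL
  mult e := mul_one _
  chain := chainG_base hL0 hX hR hNo hNc ht hρ

end Vale.Agent.P277.H884.G
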